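import Vale.Agent.P161.Threshold

open MeasureTheory

namespace Vale.Agent.Results.P161.FiidIffThreshold

theorem result : ∀ (V : Type) (G : SimpleGraph V) (d : ℕ), G.IsTree →
    (∀ v, (G.neighborSet v).ncard = d) → 3 ≤ d → ∀ β : ℝ, 0 ≤ β →
      (∃ ν : Measure (V → Bool), Vale.Agent.P161.IsFreeIsing G (Real.tanh β) ν) ∧
      ∀ ν : Measure (V → Bool), Vale.Agent.P161.IsFreeIsing G (Real.tanh β) ν →
        (Vale.Agent.P161.IsFactorOfIID G ν ↔ Real.tanh β * Real.sqrt ((d : ℝ) - 1) ≤ 1) :=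
  fun _V _G _d hT hd h3 _β hβ =>
    Vale.Agent.P161.fiid_iff_threshold hT hd h3 (Real.tanh_eq_sinh_div_cosh _ ▸
      div_nonneg (Real.sinh_nonneg_iff.2 hβ) (Real.cosh_pos _).le)
      (Real.tanh_eq_sinh_div_cosh _ ▸ ((div_le_one (Real.cosh_pos _)).2 (Real.sinh_lt_cosh _).le))

end Vale.Agent.Results.P161.FiidIffThreshold
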